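import Vale.Agent.P096.III.Sites.Units
import Vale.Agent.P096.III.Tensor.Legs
import Vale.Agent.P132.Modular.Main
import Vale.Agent.P132.Modular.Exports

/-!
# P096, type III: geometric legs as sites

The leg with number `pair (pair j k) r` is the `r`-th site of ratio `exp (-(2^(-j)))` with `2^k`
levels. Its units are split exactly by the product vector and commute asymptotically with the
tensor algebra.
-/

namespace Vale.Agent.P096.III.Sites

open scoped InnerProductSpace Topology
open Filter Tensor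
open Vale.Agent.P132 (IsCS)

universe u

/-- The number of halvings of the level count. -/
def lvl (n : ℕ) : ℕ := n.unpair.1.unpair.2

/-- The exponent of the ratio. -/
def jof (n : ℕ) : ℕ := n.unpair.1.unpair.1

/-- The position of a site among all legs. -/
def idx (j k r : ℕ) : ℕ := Nat.pair (Nat.pair j k) r

theorem lvl_idx (j k r : ℕ) : lvl (idx j k r) = k := by simp [lvl, idx]

theorem jof_idx (j k r : ℕ) : jof (idx j k r) = j := by simp [jof, idx]

theorem idx_self (n : ℕ) : idx (jof n) (lvl n) n.unpair.2 = n := by simp [idx, jof, lvl]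

theorem idx_inj {j k r j' k' r' : ℕ} (h : idx j k r = idx j' k' r') : j = j' ∧ k = k' ∧ r = r' := by
  have := congrArg Nat.unpair h
  simp only [idx, Nat.unpair_pair, Prod.mk.injEq] at this
  exact ⟨(Nat.pair_eq_pair.1 this.1).1, (Nat.pair_eq_pair.1 this.1).2, this.2⟩

/-- The dimensions. -/
abbrev dd (n : ℕ) : ℕ := 2 ^ lvl n

/-- The weights. -/
noncomputable def cw (n : ℕ) : Fin (dd n) → ℝ := weight (jof n) (lvl n)

theorem weight_pos (j k : ℕ) (a : Fin (2 ^ k)) : 0 < weight j k a :=
  div_pos (Real.exp_pos _) (Finset.sum_pos (fun b _ => Real.exp_pos _) Finset.univ_nonempty)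

theorem isWeight_cw (n : ℕ) : IsWeight (cw n) where
  pos := weight_pos _ _
  sum := by
    simp only [cw, weight, ← Finset.sum_div]
    exact div_self (Finset.sum_pos (fun b _ => Real.exp_pos _) Finset.univ_nonempty).ne'

theorem le_idx (j k r : ℕ) : r ≤ idx j k r := Nat.right_le_pair _ _

attribute [irreducible] idx lvl jof

/-- The label of a level at its site. -/
def at' (j k r : ℕ) (a : Fin (2 ^ k)) : Fin (dd (idx j k r)) :=
  Fin.cast (by rw [dd, lvl_idx]) a

theorem cw_at (j k r : ℕ) (a : Fin (2 ^ k)) : cw (idx j k r) (at' j k r a) = weight j k a := by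
  have : ∀ (j' k' : ℕ) (h : 2 ^ k = 2 ^ k'), j' = j → k' = k →
      weight j' k' (Fin.cast h a) = weight j k a := by
    rintro j' k' h rfl rfl
    rfl
  exact this _ _ _ (jof_idx j k r) (lvl_idx j k r)

theorem at_bij (j k r : ℕ) : Function.Bijective (at' j k r) := (finCongr (by rw [dd, lvl_idx])).bijective

section

variable {H : Type u} [NormedAddCommGroup H] [InnerProductSpace ℂ H] [CompleteSpace H]

variable (H) in
/-- The units of a site. -/
noncomputable def eS (j k r : ℕ) (a b : Fin (2 ^ k)) :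
    Big (Cfg dd) H →L[ℂ] Big (Cfg dd) H :=
  siteL cw H (idx j k r) (Matrix.single (at' j k r a) (at' j k r b) 1)

variable (H) in
/-- The partners. -/
noncomputable def fS (j k r : ℕ) (a b : Fin (2 ^ k)) :
    Big (Cfg dd) H →L[ℂ] Big (Cfg dd) H :=
  siteR cw H (idx j k r) (Matrix.single (at' j k r a) (at' j k r b) 1)

theorem units_of_hom {j k r : ℕ} {A : Type u} [NormedAddCommGroup A] [InnerProductSpace ℂ A]
    [CompleteSpace A]
    (π : Matrix (Fin (dd (idx j k r))) (Fin (dd (idx j k r))) ℂ →⋆ₐ[ℂ] (A →L[ℂ] A)) :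
    IsUnits fun a b => π (Matrix.single (at' j k r a) (at' j k r b) 1) where
  mul a b c d := by
    by_cases h : b = c
    · subst h
      rw [if_pos rfl, ← map_mul, Matrix.single_mul_single_same, one_mul]
    · rw [if_neg h, ← map_mul, Matrix.single_mul_single_of_ne _ _ _ _
        ((at_bij j k r).1.ne h), map_zero]
  star_eq a b := by
    rw [← map_star, Matrix.star_eq_conjTranspose, Matrix.conjTranspose_single, star_one]
  sum := by
    rw [← map_sum, (at_bij j k r).sum_comp fun i => Matrix.single i i (1 : ℂ), ← map_one π]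
    congr 1
    ext i l
    simp only [Matrix.sum_apply, Matrix.single_apply, Matrix.one_apply, ite_and]
    simp

theorem eS_units (j k r : ℕ) : IsUnits (eS H j k r) := units_of_hom (siteL cw H _)

theorem fS_units (j k r : ℕ) : IsUnits (fS H j k r) := units_of_hom (siteR cw H _)

theorem commute_eS {j k r j' k' r' : ℕ} (h : ¬(j = j' ∧ k = k' ∧ r = r'))
    (a b : Fin (2 ^ k)) (c d : Fin (2 ^ k')) : Commute (eS H j k r a b) (eS H j' k' r' c d) := by
  rw [eS, eS, siteL, siteL, StarAlgHom.comp_apply, StarAlgHom.comp_apply]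
  exact commute_site (fun e => h (idx_inj e)) _ _

theorem commute_fS {j k r j' k' r' : ℕ} (h : ¬(j = j' ∧ k = k' ∧ r = r'))
    (a b : Fin (2 ^ k)) (c d : Fin (2 ^ k')) : Commute (fS H j k r a b) (fS H j' k' r' c d) := by
  rw [fS, fS, siteR, siteR, StarAlgHom.comp_apply, StarAlgHom.comp_apply]
  exact commute_site (fun e => h (idx_inj e)) _ _

theorem fam_eS (j k : ℕ) : Fam (eS H j k) :=
  ⟨eS_units j k, fun _ _ h a b c d => commute_eS (fun e => h e.2.2) a b c d⟩

theorem fam_fS (j k : ℕ) : Fam (fS H j k) :=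
  ⟨fS_units j k, fun _ _ h a b c d => commute_fS (fun e => h e.2.2) a b c d⟩

variable {M : VonNeumannAlgebra H} {Ω : H}

theorem eS_mem (j k r : ℕ) (a b : Fin (2 ^ k)) : eS H j k r a b ∈ tens (legsG cw) M :=
  siteL_mem cw _ _

theorem fS_mem (j k r : ℕ) (a b : Fin (2 ^ k)) : fS H j k r a b ∈ (tens (legsG cw) M).commutant :=
  siteR_mem_commutant cw _ _

theorem commute_eS_fS (j k r j' k' r' : ℕ) (a b : Fin (2 ^ k)) (c d : Fin (2 ^ k')) :
    Commute (eS H j k r a b) (fS H j' k' r' c d) := by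
  rw [eS, fS, siteL, siteR, StarAlgHom.comp_apply, StarAlgHom.comp_apply]
  rcases eq_or_ne (idx j k r) (idx j' k' r') with h | h
  · obtain ⟨rfl, rfl, rfl⟩ := idx_inj h
    exact (commute_legL_legR (cw (idx j k r)) (Matrix.single (at' j k r a) (at' j k r b) 1)
      (Matrix.single (at' j k r c) (at' j k r d) 1)).map (site H (idx j k r))
  · exact commute_site h _ _

theorem legT_single {m : ℕ} [NeZero m] {c : Fin m → ℝ} (hc : IsWeight c) (a b : Fin m) :
    (√(c a) : ℂ) • legT c (Matrix.single a b 1) = (√(c b) : ℂ) • Matrix.single b a 1 := by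
  ext p q
  simp only [Matrix.smul_apply, legT, Matrix.of_apply, Matrix.single_apply, smul_eq_mul]
  by_cases h : a = q ∧ b = p
  · obtain ⟨rfl, rfl⟩ := h
    simp only [and_self, if_true, one_mul, mul_one]
    exact mul_div_cancel₀ _ (sqrt_ne hc a)
  · rw [if_neg h, if_neg (fun h' => h ⟨h'.2, h'.1⟩)]
    simp

theorem rel_S (j k r : ℕ) (a b : Fin (2 ^ k)) :
    (√(weight j k a) : ℂ) • eS H j k r a b (vac (Cfg dd) Ω) =
      (√(weight j k b) : ℂ) • fS H j k r b a (vac (Cfg dd) Ω) := by
  rw [eS, fS, siteL_vac isWeight_cw, ← smul_apply, ← map_smul, ← cw_at j k r a,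
    legT_single (isWeight_cw _), map_smul, smul_apply, cw_at]

theorem norm_le_one_of_units {n : ℕ} {e : Fin n → Fin n → H →L[ℂ] H} (he : IsUnits e) (a b : Fin n) :
    ‖e a b‖ ≤ 1 := by
  have hp : IsStarProjection (e b b) :=
    ⟨by rw [IsIdempotentElem, he.mul, if_pos rfl], he.star_eq b b⟩
  have h : star (e a b) * e a b = e b b := by rw [he.star_eq, he.mul, if_pos rfl]
  have h1 : ‖e a b‖ * ‖e a b‖ ≤ 1 := by
    rw [← CStarRing.norm_star_mul_self, h]
    exact hp.norm_le
  nlinarith [norm_nonneg (e a b)]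

/-- Vectors of the commutant are dense. -/
theorem exists_near_commutant_vector {N : VonNeumannAlgebra H} {Ω : H} (hcs : IsCS N Ω) (v : H)
    {η : ℝ} (hη : 0 < η) : ∃ y ∈ N.commutant, ‖y Ω - v‖ ≤ η := by
  obtain ⟨D⟩ := P132.Modular.stmtModular H N Ω hcs
  obtain ⟨x, hx, h⟩ := hcs.cyclic (D.J v) η hη
  refine ⟨P132.Modular.conjOp D x, P132.Modular.conjOp_mem D hx, ?_⟩
  rw [P132.Modular.conjOp_omega, ← P132.Fixed.norm_J D, P132.Fixed.J_sub, D.J_invol]
  exact h

/-- The sites commute asymptotically with the tensor algebra. -/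
theorem away_S (hΩ : IsCS M Ω) (j k : ℕ) (a b : Fin (2 ^ k))
    {x : Big (Cfg dd) H →L[ℂ] Big (Cfg dd) H} (hx : x ∈ tens (legsG cw) M) (v : Big (Cfg dd) H) :
    Tendsto (fun r => (eS H j k r a b * x - x * eS H j k r a b) v) atTop (𝓝 0) := by
  set T := tens (legsG cw) M (H := H)
  set Ω' := vac (Cfg dd) Ω
  have hcs : IsCS T Ω' := isCS_legs isWeight_cw hΩ
  set q : ℂ := (√(weight j k b) : ℂ) / (√(weight j k a) : ℂ)
  have ha : (√(weight j k a) : ℂ) ≠ 0 :=
    Complex.ofReal_ne_zero.2 (Real.sqrt_pos.2 (weight_pos j k a)).ne'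
  have hrel : ∀ r, eS H j k r a b Ω' = q • fS H j k r b a Ω' := fun r => by
    apply smul_right_injective _ ha
    simp only [q, smul_smul, mul_div_cancel₀ _ ha]
    exact rel_S j k r a b
  have hn : ∀ r, ‖eS H j k r a b * x - x * eS H j k r a b‖ ≤ 2 * ‖x‖ := fun r => by
    have h := norm_le_one_of_units (eS_units (H := H) j k r) a b
    refine (norm_sub_le _ _).trans ?_
    have h1 := (norm_mul_le (eS H j k r a b) x).trans (mul_le_mul_of_nonneg_right h (norm_nonneg _))
    have h2 := (norm_mul_le x (eS H j k r a b)).trans (mul_le_mul_of_nonneg_left h (norm_nonneg _))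
    linarith
  have key : ∀ y ∈ T, ∀ r, (eS H j k r a b * y - y * eS H j k r a b) Ω' =
      eS H j k r a b (y Ω') - q • fS H j k r b a (y Ω') := fun y hy r => by
    rw [sub_apply, mul_apply_eq_comp, mul_apply_eq_comp, hrel, map_smul]
    congr 2
    exact congrArg (fun S => S Ω')
      (VonNeumannAlgebra.mem_commutant_iff.1 (fS_mem j k r b a) y hy)
  have h0 : Tendsto (fun r => (eS H j k r a b * x - x * eS H j k r a b) Ω') atTop (𝓝 0) := by
    rw [Metric.tendsto_atTop]
    intro ε hε
    have hB : 0 < 1 + ‖q‖ := by positivity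
    obtain ⟨Y, hY, hYx⟩ := cyclic_legs isWeight_cw hΩ (x Ω') (η := ε / 2 / (1 + ‖q‖)) (by positivity)
    obtain ⟨R, hR⟩ := exists_away hY
    refine ⟨R, fun r hr => ?_⟩
    have hc : Commute (eS H j k r a b) Y := by
      rw [eS, siteL, StarAlgHom.comp_apply]
      exact hR _ (hr.trans (le_idx j k r)) _
    have hY0 := key Y (core_le (isUGroup_legsG cw) hY) r
    rw [hc.eq, sub_self, zero_apply] at hY0
    rw [dist_zero_right, key x hx r]
    have e : eS H j k r a b (x Ω') - q • fS H j k r b a (x Ω') =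
        eS H j k r a b (x Ω' - Y Ω') - q • fS H j k r b a (x Ω' - Y Ω') := by
      rw [map_sub, map_sub, smul_sub, sub_sub_sub_comm, ← hY0, sub_zero]
    rw [e]
    rw [norm_sub_rev] at hYx
    refine (norm_sub_le _ _).trans_lt ?_
    have h1 := ((eS H j k r a b).le_opNorm (x Ω' - Y Ω')).trans
      (mul_le_mul (norm_le_one_of_units (eS_units j k r) a b) hYx (norm_nonneg _) zero_le_one)
    have h2 : ‖q • fS H j k r b a (x Ω' - Y Ω')‖ ≤ ‖q‖ * (ε / 2 / (1 + ‖q‖)) := by
      rw [norm_smul]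
      refine mul_le_mul_of_nonneg_left (((fS H j k r b a).le_opNorm _).trans ?_) (norm_nonneg _)
      exact (mul_le_mul (norm_le_one_of_units (fS_units j k r) b a) hYx (norm_nonneg _)
        zero_le_one).trans_eq (one_mul _)
    have h3 : (1 + ‖q‖) * (ε / 2 / (1 + ‖q‖)) = ε / 2 := mul_div_cancel₀ _ hB.ne'
    linarith
  rw [Metric.tendsto_atTop]
  intro ε hε
  obtain ⟨y, hy, hyv⟩ := exists_near_commutant_vector hcs v
    (η := ε / 2 / (2 * ‖x‖ + 1)) (by positivity)
  obtain ⟨R, hR⟩ := Metric.tendsto_atTop.1 h0 (ε / 2 / (‖y‖ + 1)) (by positivity)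
  refine ⟨R, fun r hr => ?_⟩
  have h1 := hR r hr
  rw [dist_zero_right] at h1 ⊢
  set A := eS H j k r a b * x - x * eS H j k r a b
  have hA : A ∈ T := sub_mem (mul_mem (eS_mem j k r a b) hx) (mul_mem hx (eS_mem j k r a b))
  have hc : A (y Ω') = y (A Ω') :=
    congrArg (fun S => S Ω') (VonNeumannAlgebra.mem_commutant_iff.1 hy A hA)
  have e : A v = y (A Ω') + A (v - y Ω') := by rw [map_sub, hc, add_sub_cancel]
  rw [e]
  rw [norm_sub_rev] at hyv
  refine (norm_add_le _ _).trans_lt ?_
  have h2 : ‖A (v - y Ω')‖ ≤ (2 * ‖x‖ + 1) * (ε / 2 / (2 * ‖x‖ + 1)) :=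
    (A.le_opNorm _).trans (mul_le_mul ((hn r).trans (by linarith)) hyv (norm_nonneg _) (by positivity))
  rw [mul_div_cancel₀ _ (by positivity)] at h2
  have h3 : ‖y (A Ω')‖ < (‖y‖ + 1) * (ε / 2 / (‖y‖ + 1)) :=
    (y.le_opNorm _).trans_lt ((mul_le_mul_of_nonneg_right (by linarith) (norm_nonneg _)).trans_lt
      (mul_lt_mul_of_pos_left h1 (by positivity)))
  rw [mul_div_cancel₀ _ (by positivity)] at h3
  linarith

end

end Vale.Agent.P096.III.Sites
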