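import Vale.Agent.P096.III.Sites.Legs
import Vale.Agent.P096.III.Iface
import Vale.Agent.P096.III.Conj.Tower

/-!
# P096, type III: sites for a pinned pair

Tensor geometric legs to both algebras; the groups together with all finite permutations of equal
legs have relative commutant inside the centre.
-/

namespace Vale.Agent.P096.III.Sites

open scoped InnerProductSpace Topology
open Filter Tensor Conj
open Vale.Agent.P132 (IsCS)
open scoped Classical

universe u

variable {H : Type u} [NormedAddCommGroup H] [InnerProductSpace ℂ H] [CompleteSpace H]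

open Classical in
/-- The permutations among the first `n` sites of class `m`. -/
noncomputable def cls (H : Type u) [NormedAddCommGroup H] [InnerProductSpace ℂ H] [CompleteSpace H]
    (m n : ℕ) : Finset (Big (Cfg dd) H →L[ℂ] Big (Cfg dd) H) :=
  Finset.univ.image (perm (eS H m.unpair.1 m.unpair.2) n)

theorem mem_cls {m n : ℕ} {x : Big (Cfg dd) H →L[ℂ] Big (Cfg dd) H} :
    x ∈ cls H m n ↔ ∃ σ, perm (eS H m.unpair.1 m.unpair.2) n σ = x := by
  simp [cls]

theorem isTower_cls (m : ℕ) : IsTower (cls H m) where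
  one_mem n := mem_cls.2 ⟨1, perm_one (fam_eS _ _) n⟩
  mul_mem n a ha b hb := by
    obtain ⟨σ, rfl⟩ := mem_cls.1 ha
    obtain ⟨τ, rfl⟩ := mem_cls.1 hb
    exact mem_cls.2 ⟨τ * σ, (perm_mul (fam_eS _ _) n σ τ).symm⟩
  star_mem n a ha := by
    obtain ⟨σ, rfl⟩ := mem_cls.1 ha
    exact mem_cls.2 ⟨σ⁻¹, (star_perm (fam_eS _ _) n σ).symm⟩
  unit n a ha := by
    obtain ⟨σ, rfl⟩ := mem_cls.1 ha
    exact perm_unitary (fam_eS _ _) n σ
  mono n a ha := by
    obtain ⟨σ, rfl⟩ := mem_cls.1 ha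
    obtain ⟨τ, hτ⟩ := exists_perm_succ (fam_eS (H := H) m.unpair.1 m.unpair.2) n σ
    exact mem_cls.2 ⟨τ, hτ⟩

/-- The product of the first `m` classes. -/
noncomputable def acc (H : Type u) [NormedAddCommGroup H] [InnerProductSpace ℂ H] [CompleteSpace H] :
    ℕ → ℕ → Finset (Big (Cfg dd) H →L[ℂ] Big (Cfg dd) H)
  | 0, _ => {1}
  | m + 1, n => towerMul (acc H m) (cls H m) n

theorem commute_cls {m m' n n' : ℕ} (h : m ≠ m') {a b : Big (Cfg dd) H →L[ℂ] Big (Cfg dd) H}
    (ha : a ∈ cls H m n) (hb : b ∈ cls H m' n') : Commute a b := by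
  obtain ⟨σ, rfl⟩ := mem_cls.1 ha
  obtain ⟨τ, rfl⟩ := mem_cls.1 hb
  have hne : ¬(m.unpair.1 = m'.unpair.1 ∧ m.unpair.2 = m'.unpair.2) := fun e =>
    h (by rw [← Nat.pair_unpair m, ← Nat.pair_unpair m', e.1, e.2])
  refine Commute.sum_left _ _ _ fun x _ => Commute.sum_right _ _ _ fun y _ => ?_
  refine commute_pe (fun r _ c d => ?_) _ _
  exact (commute_pe (fun s _ a' b' => commute_eS (fun e => hne ⟨e.1.symm, e.2.1.symm⟩) c d a' b')
    _ _).symm

theorem acc_commute_cls : ∀ (m m' n n' : ℕ), m ≤ m' →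
    ∀ a ∈ acc H m n, ∀ b ∈ cls H m' n', Commute a b
  | 0, _, _, _, _, a, ha, b, _ => by
    simp only [acc, Finset.mem_singleton] at ha
    subst ha
    exact Commute.one_left b
  | m + 1, m', n, n', hm, a, ha, b, hb => by
    simp only [acc, towerMul, Finset.mem_image₂] at ha
    obtain ⟨x, hx, y, hy, rfl⟩ := ha
    exact (acc_commute_cls m m' n n' (by omega) x hx b hb).mul_left
      (commute_cls (by omega) hy hb)

theorem isTower_acc : ∀ m, IsTower (acc H m)
  | 0 => by
    constructor <;> simp [acc]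
  | m + 1 => isTower_towerMul (isTower_acc m) (isTower_cls m) (by
    rintro a ⟨n, ha⟩ b ⟨n', hb⟩
    exact acc_commute_cls m m n n' le_rfl a ha b hb)

theorem isTower_diag : IsTower fun n => acc H n n where
  one_mem n := (isTower_acc n).one_mem n
  mul_mem n := (isTower_acc n).mul_mem n
  star_mem n := (isTower_acc n).star_mem n
  unit n := (isTower_acc n).unit n
  mono n a ha := Finset.mem_image₂.2 ⟨a, (isTower_acc n).mono n a ha, 1,
    (isTower_cls n).one_mem (n + 1), mul_one a⟩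

theorem cls_subset_acc {m n : ℕ} : ∀ {m' : ℕ}, m < m' → cls H m n ⊆ acc H m' n
  | 0, h => absurd h (Nat.not_lt_zero m)
  | m' + 1, h => by
    intro a ha
    rcases eq_or_ne m m' with rfl | hne
    · exact Finset.mem_image₂.2 ⟨1, (isTower_acc m).one_mem n, a, ha, one_mul a⟩
    · exact Finset.mem_image₂.2 ⟨a, cls_subset_acc (show m < m' by omega) ha, 1,
        (isTower_cls m').one_mem n, mul_one a⟩

open Classical in
/-- The amplified groups. -/
noncomputable def ampT (P : ℕ → Finset (H →L[ℂ] H)) (n : ℕ) :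
    Finset (Big (Cfg dd) H →L[ℂ] Big (Cfg dd) H) :=
  (P n).image (amp (Cfg dd) H)

variable {M : VonNeumannAlgebra H} {Ω : H} {P : ℕ → Finset (H →L[ℂ] H)}

theorem isTower_ampT (hP : Grps M Ω P) : IsTower (ampT P) := by
  classical
  refine ⟨fun n => ?_, fun n a ha b hb => ?_, fun n a ha => ?_, fun n a ha => ?_, fun n a ha => ?_⟩
  · exact Finset.mem_image.2 ⟨1, hP.one_mem n, map_one _⟩
  all_goals obtain ⟨x, hx, rfl⟩ := Finset.mem_image.1 ha
  · obtain ⟨y, hy, rfl⟩ := Finset.mem_image.1 hb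
    exact Finset.mem_image.2 ⟨x * y, hP.mul_mem n x hx y hy, map_mul _ _ _⟩
  · exact Finset.mem_image.2 ⟨star x, hP.star_mem n x hx, map_star _ _⟩
  · exact Unitary.map_mem _ (hP.unit n x hx)
  · exact Finset.mem_image.2 ⟨x, hP.mono n hx, rfl⟩

/-- All groups together. -/
noncomputable def grp (P : ℕ → Finset (H →L[ℂ] H)) :
    ℕ → Finset (Big (Cfg dd) H →L[ℂ] Big (Cfg dd) H) :=
  towerMul (ampT P) fun n => acc H n n

theorem commute_amp_cls (y : H →L[ℂ] H) {m n : ℕ} {b : Big (Cfg dd) H →L[ℂ] Big (Cfg dd) H}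
    (hb : b ∈ cls H m n) : Commute (amp (Cfg dd) H y) b := by
  obtain ⟨σ, rfl⟩ := mem_cls.1 hb
  refine Commute.sum_right _ _ _ fun a _ => commute_pe (fun r _ c d => ?_) _ _
  rw [eS, siteL, StarAlgHom.comp_apply]
  exact commute_amp_site y _ _

theorem commute_amp_acc (y : H →L[ℂ] H) : ∀ (m n : ℕ), ∀ b ∈ acc H m n,
    Commute (amp (Cfg dd) H y) b
  | 0, _, b, hb => by
    simp only [acc, Finset.mem_singleton] at hb
    subst hb
    exact Commute.one_right _
  | m + 1, n, b, hb => by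
    obtain ⟨x, hx, z, hz, rfl⟩ := Finset.mem_image₂.1 hb
    exact (commute_amp_acc y m n x hx).mul_right (commute_amp_cls y hz)

theorem isTower_grp (hP : Grps M Ω P) : IsTower (grp P) := by
  classical
  refine isTower_towerMul (isTower_ampT hP) isTower_diag ?_
  rintro a ⟨n, ha⟩ b ⟨m, hb⟩
  obtain ⟨x, -, rfl⟩ := Finset.mem_image.1 ha
  exact commute_amp_acc x m m b hb

/-- `g` lies in `A` and centralises the state of `ξ`. -/
def Cz {K : Type u} [NormedAddCommGroup K] [InnerProductSpace ℂ K] [CompleteSpace K]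
    (A : VonNeumannAlgebra K) (ξ : K) (g : K →L[ℂ] K) : Prop :=
  g ∈ A ∧ ∀ x ∈ A, ⟪ξ, g (x ξ)⟫_ℂ = ⟪ξ, x (g ξ)⟫_ℂ

theorem cz_mul {K : Type u} [NormedAddCommGroup K] [InnerProductSpace ℂ K] [CompleteSpace K]
    {A : VonNeumannAlgebra K} {ξ : K} {a b : K →L[ℂ] K} (ha : Cz A ξ a) (hb : Cz A ξ b) :
    Cz A ξ (a * b) := by
  refine ⟨mul_mem ha.1 hb.1, fun x hx => ?_⟩
  simp only [mul_apply_eq_comp]
  have h1 := ha.2 (b * x) (mul_mem hb.1 hx)
  have h2 := hb.2 (x * a) (mul_mem hx ha.1)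
  simp only [mul_apply_eq_comp] at h1 h2
  rw [h1, h2]

theorem cz_amp (hΩ : Grps M Ω P) {n : ℕ} {x : H →L[ℂ] H} (hx : x ∈ P n) :
    Cz (tens (legsG cw) M) (vac (Cfg dd) Ω) (amp (Cfg dd) H x) := by
  refine ⟨amp_mem (isUGroup_legsG cw) (hΩ.mem n x hx), fun T hT => ?_⟩
  have hb := hΩ.central n x hx (blk 0 0 T) (blk_mem (isUGroup_legsG cw) hT 0 0)
  have e : amp (Cfg dd) H x (vac (Cfg dd) Ω) = vac (Cfg dd) (x Ω) := amp_single x 0 Ω
  rw [e, inner_vac, ← mul_apply_eq_comp (amp (Cfg dd) H x), inner_vac, ← hb]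
  congr 1
  rw [blk_apply, mul_apply_eq_comp, amp_apply, ← blk_apply]

theorem perm_vac (j k n : ℕ) (σ : Equiv.Perm (Fin n)) :
    perm (eS H j k) n σ (vac (Cfg dd) Ω) = star (perm (fS H j k) n σ) (vac (Cfg dd) Ω) :=
  perm_omega (fam_fS j k) (fun r s a b c d => commute_eS_fS j k r j k s a b c d) (rel_S j k)
    (weight_pos j k) n σ

theorem perm_fS_mem (j k n : ℕ) (σ : Equiv.Perm (Fin n)) :
    perm (fS H j k) n σ ∈ (tens (legsG cw) M).commutant :=
  sum_mem fun _ _ => pe_mem (fun r => fS_mem j k r) n _ _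

theorem cz_cls {m n : ℕ} {b : Big (Cfg dd) H →L[ℂ] Big (Cfg dd) H} (hb : b ∈ cls H m n) :
    Cz (tens (legsG cw) M) (vac (Cfg dd) Ω) b := by
  obtain ⟨σ, rfl⟩ := mem_cls.1 hb
  refine ⟨sum_mem fun _ _ => pe_mem (fun r => eS_mem _ _ r) n _ _, fun x hx => ?_⟩
  refine central_of_partner (star_mem (perm_fS_mem _ _ n σ)) (perm_vac _ _ n σ) ?_ hx
  rw [star_star, star_perm (fam_eS _ _), perm_vac, star_perm (fam_fS _ _), inv_inv]

theorem cz_acc : ∀ (m n : ℕ), ∀ b ∈ acc H m n, Cz (tens (legsG cw) M) (vac (Cfg dd) Ω) b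
  | 0, _, b, hb => by
    simp only [acc, Finset.mem_singleton] at hb
    subst hb
    exact ⟨one_mem _, fun x _ => by simp⟩
  | m + 1, n, b, hb => by
    obtain ⟨x, hx, z, hz, rfl⟩ := Finset.mem_image₂.1 hb
    exact cz_mul (cz_acc m n x hx) (cz_cls hz)

theorem cz_grp (hΩ : Grps M Ω P) {n : ℕ} {g : Big (Cfg dd) H →L[ℂ] Big (Cfg dd) H}
    (hg : g ∈ grp P n) : Cz (tens (legsG cw) M) (vac (Cfg dd) Ω) g := by
  classical
  obtain ⟨a, ha, b, hb, rfl⟩ := Finset.mem_image₂.1 hg
  obtain ⟨x, hx, rfl⟩ := Finset.mem_image.1 ha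
  exact cz_mul (cz_amp hΩ hx) (cz_acc n n b hb)

/-- An element commuting with all permutations commutes with every site. -/
theorem commute_eS_of_perm (hΩ : IsCS M Ω) {T : Big (Cfg dd) H →L[ℂ] Big (Cfg dd) H}
    (hT : T ∈ tens (legsG cw) M) {j k : ℕ}
    (hW : ∀ n σ, Commute (perm (eS H j k) n σ) T) (r : ℕ) (a b : Fin (2 ^ k)) :
    Commute (eS H j k r a b) T := by
  set Ω' := vac (Cfg dd) Ω
  have hcs : IsCS (tens (legsG cw) M) Ω' := isCS_legs isWeight_cw hΩ
  set C := fun s => eS H j k s a b * T - T * eS H j k s a b with hC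
  have hmem : ∀ s, C s ∈ tens (legsG cw) M := fun s =>
    sub_mem (mul_mem (eS_mem j k s a b) hT) (mul_mem hT (eS_mem j k s a b))
  have hle : ∀ s, r < s → ‖C r Ω'‖ ≤ ‖C s Ω'‖ := by
    intro s hs
    let i : Fin (s + 1) := ⟨r, by omega⟩
    set σ := Equiv.swap i (Fin.last s)
    set W := perm (eS H j k) (s + 1) σ
    have hWu : W ∈ unitary _ := perm_unitary (fam_eS j k) _ σ
    have h1 : W * eS H j k s a b = eS H j k r a b * W := by
      have := perm_conj (fam_eS (H := H) j k) (s + 1) σ i a b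
      simpa [σ, W, i] using this
    have h2 : C r * W = W * C s := by
      simp only [hC, sub_mul, mul_sub, mul_assoc]
      rw [← h1, ← mul_assoc T W, ← (hW (s + 1) σ).eq, mul_assoc W T, ← mul_assoc (eS H j k r a b),
        ← h1, mul_assoc W]
    have h3 : C r = W * C s * star W := by
      rw [← h2, mul_assoc, Unitary.mul_star_self_of_mem hWu, mul_one]
    set V := perm (fS H j k) (s + 1) σ
    have hV : star W Ω' = V Ω' := by
      rw [star_perm (fam_eS j k), perm_vac, star_perm (fam_fS j k), inv_inv]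
    have hVc : C s (V Ω') = V (C s Ω') :=
      congrArg (fun S => S Ω') (VonNeumannAlgebra.mem_commutant_iff.1
        (perm_fS_mem j k (s + 1) σ) (C s) (hmem s))
    rw [h3, mul_apply_eq_comp, mul_apply_eq_comp, hV, hVc,
      ContinuousLinearMap.norm_map_of_mem_unitary hWu,
      ContinuousLinearMap.norm_map_of_mem_unitary (perm_unitary (fam_fS j k) _ σ)]
  have h0 : C r Ω' = 0 := norm_le_zero_iff.1 (ge_of_tendsto
    (tendsto_zero_iff_norm_tendsto_zero.1 (away_S hΩ j k a b hT Ω'))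
    (eventually_atTop.2 ⟨r + 1, fun s hs => hle s (by omega)⟩))
  exact sub_eq_zero.1 (hcs.separating _ (hmem r) h0)

theorem grps_legs (hΩ : Grps M Ω P) :
    Grps (tens (legsG cw) M) (vac (Cfg dd) Ω) (grp P) := by
  classical
  have ht := isTower_grp hΩ
  refine ⟨isCS_legs isWeight_cw hΩ.cs, ht.one_mem, ht.mul_mem, ht.star_mem, ht.unit,
    fun n => ht.mono n, fun n g hg => (cz_grp hΩ hg).1, fun n g hg => (cz_grp hΩ hg).2,
    fun T hT hc => ?_⟩
  have hamp : ∀ n, ∀ x ∈ P n, Commute (amp (Cfg dd) H x) T := fun n x hx => hc n _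
    (Finset.mem_image₂.2 ⟨_, Finset.mem_image.2 ⟨x, hx, rfl⟩, 1,
      isTower_diag.one_mem n, mul_one _⟩)
  have hW : ∀ j k n σ, Commute (perm (eS H j k) n σ) T := by
    intro j k n σ
    have h0 : perm (eS H j k) n σ ∈ cls H (Nat.pair j k) n := by
      rw [mem_cls, Nat.unpair_pair]
      exact ⟨σ, rfl⟩
    set l := max n (Nat.pair j k + 1) with hl
    have h1 : perm (eS H j k) n σ ∈ cls H (Nat.pair j k) l := by
      obtain ⟨d, hd⟩ := Nat.le.dest (le_max_left n (Nat.pair j k + 1))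
      rw [hl, ← hd]
      clear hd
      induction d with
      | zero => exact h0
      | succ d ih => exact (isTower_cls _).mono _ _ ih
    exact hc l _ (Finset.mem_image₂.2 ⟨1, (isTower_ampT hΩ).one_mem l, _,
      cls_subset_acc (lt_of_lt_of_le (Nat.lt_succ_self _) (le_max_right _ _)) h1, one_mul _⟩)
  have hL : ∀ n A, Commute (siteL cw H n A) T := by
    intro n A
    obtain ⟨j, k, r, rfl⟩ : ∃ j k r, idx j k r = n := ⟨_, _, _, idx_self n⟩
    rw [Matrix.matrix_eq_sum_single A, map_sum]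
    refine Commute.sum_left _ _ _ fun p _ => ?_
    rw [map_sum]
    refine Commute.sum_left _ _ _ fun q _ => ?_
    obtain ⟨a, rfl⟩ := (at_bij j k r).2 p
    obtain ⟨b, rfl⟩ := (at_bij j k r).2 q
    rw [← mul_one (A (at' j k r a) (at' j k r b)), ← smul_eq_mul, ← Matrix.smul_single, map_smul]
    exact (commute_eS_of_perm hΩ.cs hT (hW j k) r a b).smul_left _
  have hsite : ∀ n, ∀ X : Matrix (Cfg dd n) (Cfg dd n) ℂ, Commute (site H n X) T := fun n X => by
    refine Submodule.span_induction (p := fun y _ => Commute (site H n y) T) ?_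
      (by rw [map_zero]; exact Commute.zero_left T)
      (fun y z _ _ h₁ h₂ => by rw [map_add]; exact h₁.add_left h₂)
      (fun r y _ h₁ => by rw [map_smul]; exact h₁.smul_left r) (matrix_mem_span (cw n) X)
    rintro _ ⟨⟨A, B⟩, rfl⟩
    rw [map_mul]
    exact (hL n A).mul_left
      (VonNeumannAlgebra.mem_commutant_iff.1 (siteR_mem_commutant cw n B) T hT).symm
  have e := eq_amp_of_commute_site hsite
  rw [e]
  refine amp_mem_commutant cw (hΩ.irred _ (blk_mem (isUGroup_legsG cw) hT 0 0) fun n x hx => ?_)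
  have h := congrArg (blk (0 : Lbl (Cfg dd)) 0) (hamp n x hx).eq
  rwa [e, ← map_mul, ← map_mul, blk_amp, blk_amp] at h

theorem sites_legs (hΩ : IsCS M Ω) :
    Sites (tens (legsG cw) M) (vac (Cfg dd) Ω) (eS H) (fS H) :=
  ⟨eS_units, fS_units, eS_mem, fS_mem, rel_S, fun j k a b _ hx v => away_S hΩ j k a b hx v⟩

/-- A pinned pair gets its sites from geometric legs. -/
theorem stmtSites : Iface.StmtSites.{u} := by
  intro H _ _ _ M N Ω P hP
  refine ⟨Cfg dd, inferInstance, inferInstance, inferInstance, legsG cw, isUGroup_legsG cw,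
    vac (Cfg dd) Ω, ⟨grp P, eS H, fS H, grps_legs hP.right, sites_legs hP.right.cs⟩, ?_⟩
  refine ⟨grps_legs hP.left, fun T => ?_, eS_mem, fS_mem⟩
  have side : ∀ {A B : VonNeumannAlgebra H}, (∀ z, InCentre A z → InCentre B z) →
      InCentre (tens (legsG cw) A) T → InCentre (tens (legsG cw) B) T := by
    intro A B hAB h
    obtain ⟨z, hz, hz', rfl⟩ := exists_central h.1 fun S hS =>
      VonNeumannAlgebra.mem_commutant_iff.1 h.2 S (core_le (isUGroup_legsG cw) hS)
    exact ⟨amp_mem (isUGroup_legsG cw) (hAB z ⟨hz, hz'⟩).1,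
      amp_mem_commutant cw (hAB z ⟨hz, hz'⟩).2⟩
  exact ⟨side fun z => (hP.centre z).1, side fun z => (hP.centre z).2⟩

end Vale.Agent.P096.III.Sites
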