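import Vale.Agent.P096.III.Defs

/-!
# P096, type III: permutations of commuting systems of matrix units

For commuting systems `e 0, e 1, ...` the permutations of the first `q` systems are realised by
unitaries `perm e q σ`; with partners in the commutant they centralise the vector.
-/

namespace Vale.Agent.P096.III.Sites

open scoped InnerProductSpace
open Filter

universe u

variable {H : Type u} [NormedAddCommGroup H] [InnerProductSpace ℂ H] [CompleteSpace H]
variable {L : ℕ} {e f : ℕ → Fin L → Fin L → H →L[ℂ] H}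

/-- Commuting systems of matrix units. -/
structure Fam (e : ℕ → Fin L → Fin L → H →L[ℂ] H) : Prop where
  units : ∀ r, IsUnits (e r)
  comm : ∀ r s, r ≠ s → ∀ a b c d, Commute (e r a b) (e s c d)

/-- The product units of the first `q` systems. -/
noncomputable def pe (e : ℕ → Fin L → Fin L → H →L[ℂ] H) :
    (q : ℕ) → (Fin q → Fin L) → (Fin q → Fin L) → H →L[ℂ] H
  | 0, _, _ => 1
  | q + 1, a, b => pe e q (Fin.init a) (Fin.init b) * e q (a (Fin.last q)) (b (Fin.last q))

/-- The unitary of a permutation. -/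
noncomputable def perm (e : ℕ → Fin L → Fin L → H →L[ℂ] H) (q : ℕ) (σ : Equiv.Perm (Fin q)) :
    H →L[ℂ] H :=
  ∑ a : Fin q → Fin L, pe e q (a ∘ σ) a

theorem commute_pe {q : ℕ} {x : H →L[ℂ] H} (h : ∀ r, r < q → ∀ c d, Commute x (e r c d))
    (a b : Fin q → Fin L) : Commute x (pe e q a b) := by
  induction q with
  | zero => exact Commute.one_right x
  | succ q ih =>
    exact (ih (fun r hr => h r (by omega)) _ _).mul_right (h q (by omega) _ _)

theorem pe_mem {A : VonNeumannAlgebra H} (h : ∀ r a b, e r a b ∈ A) :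
    ∀ (q : ℕ) (a b : Fin q → Fin L), pe e q a b ∈ A
  | 0, _, _ => one_mem A
  | q + 1, _, _ => mul_mem (pe_mem h q _ _) (h q _ _)

variable (he : Fam e)
include he

theorem commute_e_pe {q m : ℕ} (hm : q ≤ m) (c d : Fin L) (a b : Fin q → Fin L) :
    Commute (e m c d) (pe e q a b) :=
  commute_pe (fun r hr c' d' => he.comm m r (by omega) c d c' d') a b

theorem pe_mul : ∀ (q : ℕ) (a b c d : Fin q → Fin L),
    pe e q a b * pe e q c d = if b = c then pe e q a d else 0
  | 0, a, b, c, d => by rw [if_pos (Subsingleton.elim b c)]; exact one_mul 1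
  | q + 1, a, b, c, d => by
    simp only [pe]
    rw [mul_assoc, ← mul_assoc (e q _ _) (pe e q _ _), (commute_e_pe he le_rfl _ _ _ _).eq,
      mul_assoc (pe e q _ _) (e q _ _), ← mul_assoc, pe_mul q, (he.units q).mul]
    by_cases h : b = c
    · subst h; simp
    · rw [if_neg h]
      by_cases h1 : Fin.init b = Fin.init c
      · rw [if_pos h1, if_neg (fun h2 => h ?_), mul_zero]
        rw [← Fin.snoc_init_self b, ← Fin.snoc_init_self c, h1, h2]
      · rw [if_neg h1, zero_mul]

theorem star_pe : ∀ (q : ℕ) (a b : Fin q → Fin L), star (pe e q a b) = pe e q b a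
  | 0, _, _ => star_one _
  | q + 1, a, b => by
    simp only [pe, star_mul, (he.units q).star_eq, star_pe q]
    exact (commute_e_pe he le_rfl _ _ _ _).eq

theorem sum_snoc (q : ℕ) (σ : (Fin q → Fin L) → Fin q → Fin L) :
    ∑ a : Fin (q + 1) → Fin L, pe e (q + 1) (Fin.snoc (σ (Fin.init a)) (a (Fin.last q))) a =
      ∑ a : Fin q → Fin L, pe e q (σ a) a := by
  rw [← (Fin.snocEquiv fun _ : Fin (q + 1) => Fin L).sum_comp, Fintype.sum_prod_type,
    Finset.sum_comm]
  refine Finset.sum_congr rfl fun a _ => ?_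
  simp only [Fin.snocEquiv, Equiv.coe_fn_mk, pe, Fin.init_snoc, Fin.snoc_last]
  rw [← Finset.mul_sum, (he.units q).sum, mul_one]

theorem sum_pe : ∀ q : ℕ, ∑ a : Fin q → Fin L, pe e q a a = 1
  | 0 => by simp [pe]
  | q + 1 => by
    have h := sum_snoc he q id
    simp only [id_eq, Fin.snoc_init_self] at h
    rw [h, sum_pe q]

theorem perm_mul (q : ℕ) (σ τ : Equiv.Perm (Fin q)) :
    perm e q σ * perm e q τ = perm e q (τ * σ) := by
  simp only [perm, Finset.sum_mul]
  simp only [Finset.mul_sum, pe_mul he, Equiv.Perm.coe_mul]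
  rw [Finset.sum_comm]
  refine Finset.sum_congr rfl fun b _ => ?_
  rw [Finset.sum_ite_eq' Finset.univ (b ∘ τ) fun a => pe e q (a ∘ σ) b,
    if_pos (Finset.mem_univ _)]
  rfl

theorem perm_one (q : ℕ) : perm e q 1 = 1 := by
  simpa [perm] using sum_pe he q

theorem star_perm (q : ℕ) (σ : Equiv.Perm (Fin q)) : star (perm e q σ) = perm e q σ⁻¹ := by
  simp only [perm, star_sum, star_pe he]
  rw [← (Equiv.arrowCongr σ (Equiv.refl (Fin L))).sum_comp]
  refine Finset.sum_congr rfl fun a _ => ?_
  congr 1
  funext i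
  simp [Equiv.arrowCongr]

theorem perm_unitary (q : ℕ) (σ : Equiv.Perm (Fin q)) :
    perm e q σ ∈ unitary (H →L[ℂ] H) := by
  refine ⟨?_, ?_⟩ <;> simp [star_perm he, perm_mul he, perm_one he]

theorem e_mul_pe : ∀ (q : ℕ) (i : Fin q) (u v : Fin L) (a b : Fin q → Fin L),
    e i u v * pe e q a b = if v = a i then pe e q (Function.update a i u) b else 0
  | 0, i, _, _, _, _ => i.elim0
  | q + 1, i, u, v, a, b => by
    induction i using Fin.lastCases with
    | last =>
      simp only [pe, Fin.val_last, Fin.init_update_last, Function.update_self]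
      rw [← mul_assoc, (commute_e_pe he le_rfl _ _ _ _).eq, mul_assoc, (he.units q).mul]
      split_ifs <;> simp
    | cast i =>
      simp only [pe, Fin.val_castSucc, Fin.init_update_castSucc,
        Function.update_of_ne (Fin.castSucc_lt_last i).ne']
      rw [← mul_assoc, e_mul_pe q]
      rw [Fin.init_def]
      split_ifs <;> simp

theorem pe_mul_e (q : ℕ) (i : Fin q) (u v : Fin L) (a b : Fin q → Fin L) :
    pe e q a b * e i u v = if u = b i then pe e q a (Function.update b i v) else 0 := by
  have h := congrArg star (e_mul_pe he q i v u b a)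
  rw [star_mul, star_pe he, (he.units _).star_eq] at h
  rw [h]
  split_ifs <;> simp [star_pe he]

/-- The permutation carries one system to another. -/
theorem perm_conj (q : ℕ) (σ : Equiv.Perm (Fin q)) (i : Fin q) (u v : Fin L) :
    perm e q σ * e (σ i) u v = e i u v * perm e q σ := by
  simp only [perm, Finset.sum_mul, Finset.mul_sum, pe_mul_e he, e_mul_pe he]
  rw [← Finset.sum_filter, ← Finset.sum_filter]
  refine Finset.sum_bij' (fun a _ => Function.update a (σ i) v)
    (fun a _ => Function.update a (σ i) u) (fun a _ => ?_) (fun a _ => ?_) (fun a ha => ?_)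
    (fun a ha => ?_) fun a ha => ?_
  · simp
  · simp
  · simp only [Finset.mem_filter] at ha
    simp [ha.2]
  · simp only [Finset.mem_filter, Function.comp_apply] at ha
    simp [ha.2]
  · simp only [Finset.mem_filter] at ha
    congr 1
    funext j
    rcases eq_or_ne j i with rfl | hj
    · simp [ha.2]
    · simp [Function.update_of_ne hj, Function.update_of_ne (σ.injective.ne hj)]

theorem exists_perm_succ (q : ℕ) (σ : Equiv.Perm (Fin q)) :
    ∃ τ : Equiv.Perm (Fin (q + 1)), perm e (q + 1) τ = perm e q σ := by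
  let g : Option (Fin q) ≃ Fin (q + 1) := (finSuccEquivLast).symm
  refine ⟨g.symm.trans ((Equiv.optionCongr σ).trans g), ?_⟩
  rw [perm, perm, ← sum_snoc he q (fun a => a ∘ σ)]
  refine Finset.sum_congr rfl fun a _ => ?_
  congr 1
  funext j
  induction j using Fin.lastCases with
  | last => simp [g]
  | cast j => simp [g, Fin.init]

omit he

variable {Ω : H} {w : Fin L → ℝ}

theorem rel_pe (hf : Fam f) (hef : ∀ r s a b c d, Commute (e r a b) (f s c d))
    (hrel : ∀ r a b, (√(w a) : ℂ) • e r a b Ω = (√(w b) : ℂ) • f r b a Ω) :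
    ∀ (q : ℕ) (a b : Fin q → Fin L),
      (∏ i, (√(w (a i)) : ℂ)) • pe e q a b Ω = (∏ i, (√(w (b i)) : ℂ)) • pe f q b a Ω
  | 0, _, _ => by simp [pe]
  | q + 1, a, b => by
    have hc := congrArg (fun T : H →L[ℂ] H => T Ω)
      (commute_pe (x := f q (b (Fin.last q)) (a (Fin.last q))) (e := e)
        (fun r _ c d => (hef r q c d _ _).symm) (Fin.init a) (Fin.init b)).eq
    have hc' := congrArg (fun T : H →L[ℂ] H => T Ω)
      (commute_e_pe hf le_rfl (b (Fin.last q)) (a (Fin.last q)) (Fin.init b) (Fin.init a)).eq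
    simp only [mul_apply_eq_comp] at hc hc'
    simp only [Fin.prod_univ_castSucc, pe, mul_apply_eq_comp]
    rw [mul_smul, ← map_smul, hrel, map_smul, smul_comm, ← hc, ← map_smul,
      show (∏ i : Fin q, (√(w (a i.castSucc)) : ℂ)) • pe e q (Fin.init a) (Fin.init b) Ω =
        (∏ i : Fin q, (√(w (b i.castSucc)) : ℂ)) • pe f q (Fin.init b) (Fin.init a) Ω from
        rel_pe hf hef hrel q _ _, map_smul, hc', smul_smul, mul_comm]

/-- The permutation acts on the vector as the inverse one of the partners. -/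
theorem perm_omega (hf : Fam f) (hef : ∀ r s a b c d, Commute (e r a b) (f s c d))
    (hrel : ∀ r a b, (√(w a) : ℂ) • e r a b Ω = (√(w b) : ℂ) • f r b a Ω)
    (hw : ∀ a, 0 < w a) (q : ℕ) (σ : Equiv.Perm (Fin q)) :
    perm e q σ Ω = star (perm f q σ) Ω := by
  simp only [perm, star_sum, star_pe hf, sum_apply]
  refine Finset.sum_congr rfl fun a _ => ?_
  have h := rel_pe hf hef hrel q (a ∘ σ) a
  rw [Function.comp_def, Equiv.prod_comp σ fun i => (√(w (a i)) : ℂ)] at h
  exact (smul_right_injective H (Finset.prod_ne_zero_iff.2 fun i _ =>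
    Complex.ofReal_ne_zero.2 (Real.sqrt_pos.2 (hw (a i))).ne')) h

/-- An element of `M` that acts on the vector as one of the commutant centralises the state. -/
theorem central_of_partner {M : VonNeumannAlgebra H} {g g' : H →L[ℂ] H}
    (hg' : g' ∈ M.commutant) (h : g Ω = g' Ω) (h' : star g Ω = star g' Ω) {x : H →L[ℂ] H}
    (hx : x ∈ M) : ⟪Ω, g (x Ω)⟫_ℂ = ⟪Ω, x (g Ω)⟫_ℂ := by
  have hc := congrArg (fun T : H →L[ℂ] H => T Ω)
    (VonNeumannAlgebra.mem_commutant_iff.1 hg' x hx)
  simp only [mul_apply_eq_comp] at hc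
  rw [h, hc, ← ContinuousLinearMap.adjoint_inner_left g, ← ContinuousLinearMap.adjoint_inner_left g',
    ← ContinuousLinearMap.star_eq_adjoint, ← ContinuousLinearMap.star_eq_adjoint, h']

end Vale.Agent.P096.III.Sites
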